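import Mathlib

/-! # P123: a Kantorovich inequality and the sharpness of the constant five quarters -/

open Polynomial

namespace Vale.Agent.N123

variable {H : Type*} [NormedAddCommGroup H] [InnerProductSpace ℂ H]

/-- Kantorovich inequality, normalised form. -/
theorem kant_one [CompleteSpace H] (S : H →L[ℂ] H) (h1 : ∀ v, ‖S v‖ ≤ ‖v‖)
    (h2 : ∀ v, ‖v‖ ≤ 2 * ‖S v‖) (y : H) :
    ‖ContinuousLinearMap.adjoint S (S y)‖ * ‖y‖ ≤ 5 / 4 * ‖S y‖ ^ 2 := by
  set x := S y with hx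
  set u := ContinuousLinearMap.adjoint S x with hu
  have e1 : RCLike.re (inner ℂ u y) = ‖x‖ ^ 2 := by
    rw [hu, ContinuousLinearMap.adjoint_inner_left, ← hx, inner_self_eq_norm_sq]
  have e2 : RCLike.re (inner ℂ (S u) x) = ‖u‖ ^ 2 := by
    rw [← ContinuousLinearMap.adjoint_inner_right, ← hu, inner_self_eq_norm_sq]
  have a1 : ‖S ((4 : ℂ) • u - y)‖ ^ 2 ≤ ‖(4 : ℂ) • u - y‖ ^ 2 :=
    pow_le_pow_left₀ (norm_nonneg _) (h1 _) 2
  have a2 : ‖u - y‖ ^ 2 ≤ (2 * ‖S (u - y)‖) ^ 2 :=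
    pow_le_pow_left₀ (norm_nonneg _) (h2 _) 2
  have n4 : ‖(4 : ℂ)‖ = 4 := by simp
  have r4 : ∀ w : ℂ, RCLike.re ((starRingEnd ℂ) 4 * w) = 4 * RCLike.re w := by
    intro w
    have : (starRingEnd ℂ) (4 : ℂ) = 4 := by
      rw [show (4 : ℂ) = ((4 : ℝ) : ℂ) by norm_num, Complex.conj_ofReal]
    rw [this]
    simp
  rw [map_sub, map_smul, ← hx, @norm_sub_sq ℂ, @norm_sub_sq ℂ, norm_smul, norm_smul,
    inner_smul_left, inner_smul_left, r4, r4, e1, e2, n4] at a1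
  rw [map_sub, ← hx, mul_pow, @norm_sub_sq ℂ, @norm_sub_sq ℂ, e1, e2] at a2
  nlinarith [sq_nonneg (‖u‖ - ‖y‖ / 2)]

/-- Kantorovich inequality for an invertible operator of condition number at most two. -/
theorem kant [CompleteSpace H] (S : (H →L[ℂ] H)ˣ)
    (hS : ‖(S : H →L[ℂ] H)‖ * ‖(↑S⁻¹ : H →L[ℂ] H)‖ ≤ 2) (x : H) :
    ‖ContinuousLinearMap.adjoint (S : H →L[ℂ] H) x‖ * ‖(↑S⁻¹ : H →L[ℂ] H) x‖
      ≤ 5 / 4 * ‖x‖ ^ 2 := by
  have hinv : ∀ v, (↑S⁻¹ : H →L[ℂ] H) ((S : H →L[ℂ] H) v) = v := fun v => by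
    rw [← mul_apply_eq_comp, Units.inv_mul, one_apply_eq_self]
  have hinv' : ∀ v, (S : H →L[ℂ] H) ((↑S⁻¹ : H →L[ℂ] H) v) = v := fun v => by
    rw [← mul_apply_eq_comp, Units.mul_inv, one_apply_eq_self]
  set a : ℝ := ‖(S : H →L[ℂ] H)‖ with ha
  rcases eq_or_lt_of_le (norm_nonneg (S : H →L[ℂ] H)) with h0 | h0
  · have hz : (S : H →L[ℂ] H) = 0 := norm_eq_zero.mp h0.symm
    rw [hz]
    simp only [map_zero, zero_apply, norm_zero, zero_mul]
    positivity
  have ha0 : 0 < a := h0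
  have hac : (a : ℂ) ≠ 0 := by exact_mod_cast ha0.ne'
  have hn : ‖((a : ℂ))⁻¹‖ = a⁻¹ := by
    rw [norm_inv, Complex.norm_real, Real.norm_of_nonneg ha0.le]
  have k := kant_one (((a : ℂ))⁻¹ • (S : H →L[ℂ] H)) (fun v => by
      rw [smul_apply, norm_smul, hn, inv_mul_le_iff₀ ha0]
      exact (S : H →L[ℂ] H).le_opNorm v) (fun v => by
      rw [smul_apply, norm_smul, hn]
      have b1 := (↑S⁻¹ : H →L[ℂ] H).le_opNorm ((S : H →L[ℂ] H) v)
      rw [hinv] at b1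
      refine b1.trans ?_
      rw [← mul_assoc]
      refine mul_le_mul_of_nonneg_right ?_ (norm_nonneg _)
      rw [← div_eq_mul_inv, le_div_iff₀ ha0, mul_comm]
      exact hS) ((a : ℂ) • (↑S⁻¹ : H →L[ℂ] H) x)
  have e : (((a : ℂ))⁻¹ • (S : H →L[ℂ] H)) ((a : ℂ) • (↑S⁻¹ : H →L[ℂ] H) x) = x := by
    rw [smul_apply, map_smul, hinv', smul_smul, inv_mul_cancel₀ hac, one_smul]
  rw [e, map_smulₛₗ, smul_apply, norm_smul, norm_smul, RCLike.norm_conj, hn,
    Complex.norm_real, Real.norm_of_nonneg ha0.le] at k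
  refine le_trans (le_of_eq ?_) k
  field_simp

theorem blaschke_le {z : ℂ} (hz : ‖z‖ ≤ 1) (n : ℕ) :
    ‖(z + 1 / 2) * ∑ k ∈ Finset.range n, (-(1 / 2) * z) ^ k‖ ≤ 1 + (1 / 2) ^ n := by
  set t : ℂ := -(1 / 2) * z with ht
  have hnt : ‖t‖ ≤ 1 / 2 := by
    rw [ht, norm_mul, norm_neg]
    have : ‖(1 / 2 : ℂ)‖ = 1 / 2 := by simp
    rw [this]; linarith
  have h1 : ‖z + 1 / 2‖ ≤ ‖1 - t‖ := by
    have hz2 : z.re ^ 2 + z.im ^ 2 ≤ 1 := by
      have := Complex.sq_norm z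
      rw [Complex.normSq_apply] at this
      nlinarith [norm_nonneg z]
    refine abs_le_of_sq_le_sq' ?_ (norm_nonneg _) |>.2
    rw [Complex.sq_norm, Complex.sq_norm, Complex.normSq_apply, Complex.normSq_apply, ht]
    simp
    nlinarith
  have h2 : (1 - t) * ∑ k ∈ Finset.range n, t ^ k = 1 - t ^ n := mul_neg_geom_sum t n
  calc ‖(z + 1 / 2) * ∑ k ∈ Finset.range n, t ^ k‖
      ≤ ‖(1 - t) * ∑ k ∈ Finset.range n, t ^ k‖ := by
        rw [norm_mul, norm_mul]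
        exact mul_le_mul_of_nonneg_right h1 (norm_nonneg _)
    _ = ‖1 - t ^ n‖ := by rw [h2]
    _ ≤ ‖(1 : ℂ)‖ + ‖t ^ n‖ := norm_sub_le _ _
    _ ≤ 1 + (1 / 2) ^ n := by
        rw [norm_one, norm_pow]
        gcongr

/-- No constant smaller than five quarters bounds the numerical radius of `P(A)`. -/
theorem five_quarters_le.{u} {C : ℝ}
    (h : ∀ (H : Type u) [NormedAddCommGroup H] [InnerProductSpace ℂ H] [CompleteSpace H]
      [Nontrivial H] (A : H →L[ℂ] H) (P : ℂ[X]) (x : H), ‖x‖ = 1 →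
      ‖inner ℂ x (aeval A P x)‖ ≤ C *
        sSup ((fun z => ‖P.eval z‖) '' {z : ℂ | ∃ x : H, ‖x‖ = 1 ∧ inner ℂ x (A x) = z})) :
    5 / 4 ≤ C := by
  let ι := ULift.{u} (Fin 2)
  let a : ι := ⟨0⟩
  let b : ι := ⟨1⟩
  have hab : a ≠ b := by
    intro h; have := congrArg ULift.down h; simp [a, b] at this
  let A : EuclideanSpace ℂ ι →L[ℂ] EuclideanSpace ℂ ι :=
    ContinuousLinearMap.smulRight (EuclideanSpace.proj b : EuclideanSpace ℂ ι →L[ℂ] ℂ)
      (EuclideanSpace.single a (2 : ℂ))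
  have hA : ∀ x, A x = x b • EuclideanSpace.single a (2 : ℂ) := fun x => rfl
  have hAA : A * A = 0 := by
    ext1 x
    rw [mul_apply_eq_comp, hA, hA]
    simp [hab.symm]
  have hsum : ∀ x : EuclideanSpace ℂ ι, ‖x‖ = 1 → ‖x a‖ ^ 2 + ‖x b‖ ^ 2 ≤ 1 := by
    intro x hx
    have h2 := EuclideanSpace.norm_sq_eq x
    rw [hx, one_pow] at h2
    rw [h2]
    have h3 : ∑ i ∈ ({a, b} : Finset ι), ‖x i‖ ^ 2 ≤ ∑ i, ‖x i‖ ^ 2 :=
      Finset.sum_le_sum_of_subset_of_nonneg (Finset.subset_univ _) (fun _ _ _ => by positivity)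
    rwa [Finset.sum_pair hab] at h3
  have hW : ∀ x : EuclideanSpace ℂ ι, ‖x‖ = 1 → ‖inner ℂ x (A x)‖ ≤ 1 := by
    intro x hx
    rw [hA, inner_smul_right, EuclideanSpace.inner_single_right]
    have h2 := hsum x hx
    have n2 : ‖(2 : ℂ)‖ = 2 := by simp
    rw [norm_mul, norm_mul, n2, RCLike.norm_conj]
    nlinarith only [h2, sq_nonneg (‖x b‖ - ‖x a‖)]
  -- the test vector
  set s : ℝ := √(1 / 2) with hs
  have hs2 : s * s = 1 / 2 := Real.mul_self_sqrt (by norm_num)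
  have hs0 : 0 ≤ s := Real.sqrt_nonneg _
  let x : EuclideanSpace ℂ ι := WithLp.toLp 2 fun _ => (s : ℂ)
  have hxa : ∀ i, x i = (s : ℂ) := fun _ => rfl
  have hx : ‖x‖ = 1 := by
    have h2 := EuclideanSpace.norm_sq_eq x
    simp only [hxa, Complex.norm_real, Real.norm_of_nonneg hs0, Finset.sum_const,
      Finset.card_univ] at h2
    have hc : Fintype.card ι = 2 := by simp [ι]
    rw [hc] at h2
    have h3 : ‖x‖ ^ 2 = 1 := by rw [h2]; simp only [nsmul_eq_mul]; push_cast; nlinarith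
    exact (pow_eq_one_iff_of_nonneg (norm_nonneg _) two_ne_zero).mp h3
  have hxA : inner ℂ x (A x) = 1 := by
    rw [hA, inner_smul_right, EuclideanSpace.inner_single_right, hxa]
    change (s : ℂ) * (2 * (starRingEnd ℂ) (s : ℂ)) = 1
    rw [Complex.conj_ofReal]
    have : (s : ℂ) * s = 1 / 2 := by
      rw [← Complex.ofReal_mul, hs2]; norm_num
    linear_combination 2 * this
  have key : ∀ n : ℕ, 5 / 4 ≤ max C 0 * (1 + (1 / 2) ^ (n + 2)) := by
    intro n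
    let P : ℂ[X] := (X + Polynomial.C (1 / 2)) *
      ∑ k ∈ Finset.range (n + 2), (Polynomial.C (-(1 / 2)) * X) ^ k
    have h1 := h (EuclideanSpace ℂ ι) A P x hx
    have hP : aeval A P = (1 / 2 : ℂ) • (1 : EuclideanSpace ℂ ι →L[ℂ] EuclideanSpace ℂ ι)
        + (3 / 4 : ℂ) • A := by
      simp only [P, map_mul, map_add, map_sum, map_pow, aeval_X, aeval_C,
        Algebra.algebraMap_eq_smul_one, smul_mul_assoc, one_mul]
      rw [Finset.sum_range_succ', Finset.sum_range_succ']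
      have hz : ∀ k : ℕ, ((-(1 / 2) : ℂ) • A) ^ (k + 1 + 1) = 0 := by
        intro k
        rw [_root_.smul_pow, pow_succ A, pow_succ A, mul_assoc, hAA, mul_zero, smul_zero]
      simp only [hz, Finset.sum_const_zero, zero_add, pow_one, pow_zero, mul_add, add_mul,
        mul_smul_comm, smul_mul_assoc, hAA, mul_one, one_mul, smul_smul]
      module
    have hv : ‖inner ℂ x (aeval A P x)‖ = 5 / 4 := by
      rw [hP, add_apply, smul_apply,
        smul_apply, one_apply_eq_self, inner_add_right,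
        inner_smul_right, inner_smul_right, hxA, inner_self_eq_norm_sq_to_K, hx]
      norm_num
    rw [hv] at h1
    have hs1 : sSup ((fun z => ‖P.eval z‖) ''
        {z : ℂ | ∃ x : EuclideanSpace ℂ ι, ‖x‖ = 1 ∧ inner ℂ x (A x) = z})
        ≤ 1 + (1 / 2) ^ (n + 2) := by
      refine Real.sSup_le ?_ (by positivity)
      rintro r ⟨z, ⟨y, hy, rfl⟩, rfl⟩
      have := blaschke_le (hW y hy) (n + 2)
      simpa only [P, eval_mul, eval_add, eval_X, eval_C, eval_finsetSum, eval_pow] using this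
    have hs0 : 0 ≤ sSup ((fun z => ‖P.eval z‖) ''
        {z : ℂ | ∃ x : EuclideanSpace ℂ ι, ‖x‖ = 1 ∧ inner ℂ x (A x) = z}) := by
      apply Real.sSup_nonneg
      rintro r ⟨z, _, rfl⟩
      positivity
    exact h1.trans (mul_le_mul (le_max_left _ _) hs1 hs0 (le_max_right _ _))
  have ht : Filter.Tendsto (fun n : ℕ => max C 0 * (1 + (1 / 2 : ℝ) ^ (n + 2))) Filter.atTop
      (nhds (max C 0 * (1 + 0))) := by
    refine Filter.Tendsto.const_mul _ (Filter.Tendsto.const_add _ ?_)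
    exact (tendsto_pow_atTop_nhds_zero_of_lt_one (by norm_num) (by norm_num)).comp
      (Filter.tendsto_add_atTop_nat 2)
  have h5 : 5 / 4 ≤ max C 0 * (1 + 0) := ge_of_tendsto' ht key
  rw [add_zero, mul_one] at h5
  rcases le_max_iff.mp h5 with h6 | h6
  · exact h6
  · norm_num at h6

end Vale.Agent.N123
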