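import Vale.Agent.P123.H628.St6
import Vale.Agent.N123.Kant

/-! # P123: norm and numerical radius of rational functions of an operator -/

open Polynomial

namespace Vale.Agent.N123

open Vale.Agent.P123.H686 Vale.Agent.P123.H628

variable {H : Type*} [NormedAddCommGroup H] [InnerProductSpace ℂ H]

theorem norm_le_blockNorm (T : H →L[ℂ] H) : ‖T‖ ≤ blockNorm (fun _ _ : Fin 1 => T) := by
  have hb : BddAbove {r : ℝ | ∃ x : Fin 1 → H, ∑ j, ‖x j‖ ^ 2 ≤ 1 ∧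
      √(∑ _i : Fin 1, ‖∑ j, T (x j)‖ ^ 2) = r} := by
    refine ⟨‖T‖, ?_⟩
    rintro r ⟨x, hx, rfl⟩
    simp only [Finset.univ_unique, Finset.sum_singleton] at hx ⊢
    rw [Real.sqrt_sq (norm_nonneg _)]
    have h1 : ‖x default‖ ≤ 1 := by nlinarith [norm_nonneg (x default)]
    exact (T.le_opNorm _).trans (mul_le_of_le_one_right (norm_nonneg _) h1)
  have h1 : ∀ v : H, ‖v‖ ≤ 1 → ‖T v‖ ≤ blockNorm (fun _ _ : Fin 1 => T) := by
    intro v hv
    refine le_csSup hb ⟨fun _ => v, ?_, ?_⟩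
    · simp only [Finset.univ_unique, Finset.sum_singleton]
      nlinarith [norm_nonneg v]
    · simp only [Finset.univ_unique, Finset.sum_singleton]
      exact Real.sqrt_sq (norm_nonneg _)
  have h0 : 0 ≤ blockNorm (fun _ _ : Fin 1 => T) := (norm_nonneg _).trans (h1 0 (by simp))
  exact ContinuousLinearMap.opNorm_le_of_unit_norm h0 fun v hv => h1 v hv.le

theorem matNorm_le (c : ℂ) : matNorm (fun _ _ : Fin 1 => c) ≤ ‖c‖ := by
  refine Real.sSup_le ?_ (norm_nonneg _)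
  rintro r ⟨x, hx, rfl⟩
  simp only [Finset.univ_unique, Finset.sum_singleton] at hx ⊢
  rw [Real.sqrt_sq (norm_nonneg _), norm_mul]
  have h1 : ‖x default‖ ≤ 1 := by nlinarith [norm_nonneg (x default)]
  exact mul_le_of_le_one_right (norm_nonneg _) h1

/-- Norm and numerical radius of `P(A) Q(A)⁻¹`. -/
theorem core [CompleteSpace H] [Nontrivial H] (A : H →L[ℂ] H) (P Q : ℂ[X])
    (hQ : ∀ z ∈ closure (W A), Q.eval z ≠ 0) {M : ℝ} (hM0 : 0 ≤ M)
    (hM : ∀ z ∈ W A, ‖P.eval z / Q.eval z‖ ≤ M) :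
    IsUnit (aeval A Q) ∧ ∀ x y : H, aeval A Q y = x →
      ‖aeval A P y‖ ≤ 2 * M * ‖x‖ ∧ ‖inner ℂ x (aeval A P y)‖ ≤ 5 / 4 * M * ‖x‖ ^ 2 := by
  obtain ⟨S, hS, hB⟩ := similar_two A
  set B : H →L[ℂ] H := (↑S⁻¹ : H →L[ℂ] H) * A * ↑S with hBdef
  obtain ⟨hU, h1⟩ := hB Q hQ
  have h4 : ∀ p : ℂ[X], aeval A p = (S : H →L[ℂ] H) * aeval B p * ↑S⁻¹ := by
    intro p
    rw [hBdef, aeval_conj_unit]
    rw [← mul_assoc, ← mul_assoc, Units.mul_inv, one_mul, mul_assoc, Units.mul_inv, mul_one]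
  set G : H →L[ℂ] H := aeval B P * Ring.inverse (aeval B Q) with hG
  have hGn : ‖G‖ ≤ M := by
    refine (norm_le_blockNorm G).trans ((h1 1 fun _ _ => P).trans ?_)
    refine Real.sSup_le ?_ hM0
    rintro r ⟨z, hz, rfl⟩
    exact (matNorm_le _).trans (hM z hz)
  refine ⟨?_, fun x y hxy => ?_⟩
  · rw [h4 Q]
    exact ((Units.isUnit S).mul hU).mul (Units.isUnit S⁻¹)
  have e1 : aeval A P = (S : H →L[ℂ] H) * G * (↑S⁻¹ : H →L[ℂ] H) * aeval A Q := by
    rw [h4 P, h4 Q, hG]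
    simp only [mul_assoc]
    rw [← mul_assoc (↑S⁻¹ : H →L[ℂ] H) (↑S : H →L[ℂ] H), Units.inv_mul, one_mul,
      ← mul_assoc (Ring.inverse _), Ring.inverse_mul_cancel _ hU, one_mul]
  have e2 : aeval A P y = (S : H →L[ℂ] H) (G ((↑S⁻¹ : H →L[ℂ] H) x)) := by
    rw [e1, ← hxy]; rfl
  have b1 : ‖G ((↑S⁻¹ : H →L[ℂ] H) x)‖ ≤ M * ‖(↑S⁻¹ : H →L[ℂ] H) x‖ :=
    (G.le_opNorm _).trans (mul_le_mul_of_nonneg_right hGn (norm_nonneg _))
  rw [e2]
  constructor
  · have b2 := (↑S⁻¹ : H →L[ℂ] H).le_opNorm x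
    calc _ ≤ ‖(S : H →L[ℂ] H)‖ * ‖G ((↑S⁻¹ : H →L[ℂ] H) x)‖ := (S : H →L[ℂ] H).le_opNorm _
      _ ≤ ‖(S : H →L[ℂ] H)‖ * (M * (‖(↑S⁻¹ : H →L[ℂ] H)‖ * ‖x‖)) := by
          gcongr
          exact b1.trans (mul_le_mul_of_nonneg_left b2 hM0)
      _ = (‖(S : H →L[ℂ] H)‖ * ‖(↑S⁻¹ : H →L[ℂ] H)‖) * (M * ‖x‖) := by ring
      _ ≤ 2 * (M * ‖x‖) := mul_le_mul_of_nonneg_right hS (by positivity)
      _ = _ := by ring
  · rw [← ContinuousLinearMap.adjoint_inner_left]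
    have k := kant S hS x
    calc _ ≤ ‖ContinuousLinearMap.adjoint (S : H →L[ℂ] H) x‖ * ‖G ((↑S⁻¹ : H →L[ℂ] H) x)‖ :=
          norm_inner_le_norm _ _
      _ ≤ ‖ContinuousLinearMap.adjoint (S : H →L[ℂ] H) x‖ * (M * ‖(↑S⁻¹ : H →L[ℂ] H) x‖) :=
          mul_le_mul_of_nonneg_left b1 (norm_nonneg _)
      _ = M * (‖ContinuousLinearMap.adjoint (S : H →L[ℂ] H) x‖ * ‖(↑S⁻¹ : H →L[ℂ] H) x‖) := by
          ring
      _ ≤ M * (5 / 4 * ‖x‖ ^ 2) := mul_le_mul_of_nonneg_left k hM0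
      _ = _ := by ring

/-- The numerical radius of `P(A)` is at most five quarters of the supremum of `|P|`. -/
theorem radius_bound [CompleteSpace H] [Nontrivial H] (A : H →L[ℂ] H) (P : ℂ[X]) (x : H)
    (hx : ‖x‖ = 1) : ‖inner ℂ x (aeval A P x)‖ ≤ 5 / 4 *
      sSup ((fun z => ‖P.eval z‖) '' {z : ℂ | ∃ x : H, ‖x‖ = 1 ∧ inner ℂ x (A x) = z}) := by
  have hb : BddAbove ((fun z => ‖P.eval z‖) '' W A) := by
    have hc : IsCompact (Metric.closedBall (0 : ℂ) ‖A‖) := isCompact_closedBall _ _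
    refine (hc.image (f := fun z => ‖P.eval z‖) P.continuous.norm).bddAbove.mono
      (Set.image_mono ?_)
    rintro z ⟨v, hv, rfl⟩
    rw [mem_closedBall_zero_iff]
    refine (norm_inner_le_norm _ _).trans ?_
    have := A.le_opNorm v
    rw [hv] at this ⊢
    linarith
  have h0 : 0 ≤ sSup ((fun z => ‖P.eval z‖) '' W A) := by
    apply Real.sSup_nonneg
    rintro r ⟨z, _, rfl⟩
    positivity
  have h := (core A P 1 (fun z _ => by simp) h0 (fun z hz => by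
    rw [eval_one, div_one]; exact le_csSup hb ⟨z, hz, rfl⟩)).2 x x (by simp)
  have h2 := h.2
  rw [hx, one_pow, mul_one] at h2
  exact h2

/-- Partial fractions of a bounded operator, in vector form. -/
theorem core_frac [CompleteSpace H] [Nontrivial H] (A : H →L[ℂ] H) {n : ℕ} (lam c : Fin n → ℂ)
    (k : Fin n → ℕ) (hl : ∀ j, lam j ∉ closure (W A)) {M : ℝ} (hM0 : 0 ≤ M)
    (hM : ∀ z ∈ W A, ‖∑ j, c j * ((z - lam j)⁻¹) ^ k j‖ ≤ M) (x : H) (v : Fin n → H)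
    (hv : ∀ j, aeval A ((X - C (lam j)) ^ k j) (v j) = x) :
    ‖∑ j, c j • v j‖ ≤ 2 * M * ‖x‖ ∧ ‖inner ℂ x (∑ j, c j • v j)‖ ≤ 5 / 4 * M * ‖x‖ ^ 2 := by
  classical
  set q : Fin n → ℂ[X] := fun j => (X - C (lam j)) ^ k j with hq
  set Q : ℂ[X] := ∏ j, q j with hQ
  set r : Fin n → ℂ[X] := fun j => ∏ i ∈ Finset.univ.erase j, q i with hr
  set P : ℂ[X] := ∑ j, C (c j) * r j with hP
  have hqr : ∀ j, q j * r j = Q := fun j => Finset.mul_prod_erase _ _ (Finset.mem_univ j)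
  have hq0 : ∀ z ∈ closure (W A), ∀ j, (q j).eval z ≠ 0 := by
    intro z hz j
    simp only [hq, eval_pow, eval_sub, eval_X, eval_C]
    refine pow_ne_zero _ (sub_ne_zero.mpr fun h => hl j (h ▸ hz))
  have hQ0 : ∀ z ∈ closure (W A), Q.eval z ≠ 0 := by
    intro z hz
    rw [hQ, eval_prod]
    exact Finset.prod_ne_zero_iff.mpr fun j _ => hq0 z hz j
  have hPQ : ∀ z ∈ W A, ‖P.eval z / Q.eval z‖ ≤ M := by
    intro z hz
    refine le_trans (le_of_eq ?_) (hM z hz)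
    congr 1
    rw [hP, eval_finsetSum, Finset.sum_div]
    refine Finset.sum_congr rfl fun j _ => ?_
    have h1 := hq0 z (subset_closure hz) j
    have h2 := hQ0 z (subset_closure hz)
    have h3 : (q j).eval z = (z - lam j) ^ k j := by
      simp only [hq, eval_pow, eval_sub, eval_X, eval_C]
    rw [← hqr j, eval_mul] at h2
    rw [← hqr j, eval_mul, eval_mul, eval_C, inv_pow, ← h3]
    have h4 : (r j).eval z ≠ 0 := right_ne_zero_of_mul h2
    field_simp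
  obtain ⟨hU, h⟩ := core A P Q hQ0 hM0 hPQ
  obtain ⟨U, hU⟩ := hU
  set y : H := (↑U⁻¹ : H →L[ℂ] H) x with hy
  have hy1 : aeval A Q y = x := by
    rw [hy, ← hU, ← mul_apply_eq_comp, Units.mul_inv, one_apply_eq_self]
  have hinj : ∀ w w' : H, aeval A Q w = aeval A Q w' → w = w' := by
    intro w w' hw
    have := congrArg (↑U⁻¹ : H →L[ℂ] H) hw
    rwa [← hU, ← mul_apply_eq_comp, ← mul_apply_eq_comp, Units.inv_mul, one_apply_eq_self,
      one_apply_eq_self] at this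
  have hrv : ∀ j, aeval A (r j) y = v j := by
    intro j
    apply hinj
    have e1 : aeval A Q (v j) = aeval A (r j) x := by
      rw [← hqr j, mul_comm, map_mul, mul_apply_eq_comp, hv j]
    rw [e1, ← mul_apply_eq_comp, ← map_mul, mul_comm, map_mul, mul_apply_eq_comp, hy1]
  have e : aeval A P y = ∑ j, c j • v j := by
    rw [hP, map_sum, sum_apply]
    refine Finset.sum_congr rfl fun j _ => ?_
    rw [map_mul, mul_apply_eq_comp, hrv, aeval_C, Algebra.algebraMap_eq_smul_one, smul_apply,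
      one_apply_eq_self]
  rw [← e]
  exact h x y hy1

end Vale.Agent.N123
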