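import Vale.Agent.N123.Unb

namespace Vale.Agent.N123.OldRadius

open Polynomial

/-- The numerical range `W(A) = {⟨Ax, x⟩ : ‖x‖ = 1}` of a bounded operator. -/
def W {H : Type*} [NormedAddCommGroup H] [InnerProductSpace ℂ H] (A : H →L[ℂ] H) : Set ℂ :=
  {z : ℂ | ∃ x : H, ‖x‖ = 1 ∧ inner ℂ x (A x) = z}

/-- The numerical range `{⟨Ax, x⟩ : x ∈ D(A), ‖x‖ = 1}` of an operator with domain `D(A)`. -/
def WD {H : Type*} [NormedAddCommGroup H] [InnerProductSpace ℂ H] (A : H →ₗ.[ℂ] H) : Set ℂ :=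
  {z : ℂ | ∃ x : A.domain, ‖(x : H)‖ = 1 ∧ inner ℂ (x : H) (A x) = z}

/-- The bounded operator `R` maps `H` into `D(A)` and `(A - l) R y = y` for all `y`. -/
def Res {H : Type*} [NormedAddCommGroup H] [InnerProductSpace ℂ H] (A : H →ₗ.[ℂ] H) (l : ℂ)
    (R : H →L[ℂ] H) : Prop :=
  ∀ y : H, ∃ h : R y ∈ A.domain, A ⟨R y, h⟩ - l • R y = y

/-- The operator `∑ⱼ cⱼ Rⱼ ^ kⱼ`. -/
noncomputable def frac {H : Type*} [NormedAddCommGroup H] [InnerProductSpace ℂ H] {n : ℕ}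
    (c : Fin n → ℂ) (R : Fin n → H →L[ℂ] H) (k : Fin n → ℕ) : H →L[ℂ] H :=
  ∑ j, c j • R j ^ k j

/-- **Crouzeix's conjecture, its numerical radius form, and unbounded operators.**

* (1) The least `C` with `‖P(A)‖ ≤ C sup_{W(A)} |P|` for all `H`, `A`, `P` is `2`.
* (2) The least `C` with `|w| ≤ C sup_{W(A)} |P|` for all `H`, `A`, `P` and all `w ∈ W(P(A))`
  is `5 / 4`.
* (3) Let `A` be a densely defined, possibly unbounded, operator, `λⱼ ∉ W(A)`, and `Rⱼ` the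
  resolvent `(A - λⱼ)⁻¹`, a bounded operator. If `f(z) = ∑ⱼ cⱼ (z - λⱼ)^(-kⱼ)` has modulus at
  most `M` on `W(A)`, then `f(A) = ∑ⱼ cⱼ Rⱼ^kⱼ` has norm at most `2 M` and numerical radius at
  most `5 M / 4`. -/
theorem thm.{u} :
    IsLeast {C : ℝ | ∀ (H : Type u) [NormedAddCommGroup H] [InnerProductSpace ℂ H]
      [CompleteSpace H] [Nontrivial H] (A : H →L[ℂ] H) (P : ℂ[X]),
      ‖aeval A P‖ ≤ C * sSup ((fun z => ‖P.eval z‖) '' W A)} 2 ∧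
    IsLeast {C : ℝ | ∀ (H : Type u) [NormedAddCommGroup H] [InnerProductSpace ℂ H]
      [CompleteSpace H] [Nontrivial H] (A : H →L[ℂ] H) (P : ℂ[X]),
      ∀ w ∈ W (aeval A P), ‖w‖ ≤ C * sSup ((fun z => ‖P.eval z‖) '' W A)} (5 / 4) ∧
    ∀ (H : Type u) [NormedAddCommGroup H] [InnerProductSpace ℂ H] [CompleteSpace H]
      [Nontrivial H] (A : H →ₗ.[ℂ] H), Dense (A.domain : Set H) →
      ∀ (n : ℕ) (l c : Fin n → ℂ) (k : Fin n → ℕ) (R : Fin n → H →L[ℂ] H),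
        (∀ j, l j ∉ WD A) → (∀ j, Res A (l j) (R j)) →
        ∀ M : ℝ, (∀ z ∈ WD A, ‖∑ j, c j * ((z - l j)⁻¹) ^ k j‖ ≤ M) →
          ‖frac c R k‖ ≤ 2 * M ∧ ∀ w ∈ W (frac c R k), ‖w‖ ≤ 5 / 4 * M := by
  refine ⟨⟨fun _ _ _ _ _ A P => Vale.Agent.P123.crouzeix_bound A P,
      fun _ hC => Vale.Agent.P123.two_le_of_bound hC⟩,
    ⟨fun _ _ _ _ _ A P w hw => ?_, fun _ hC => Vale.Agent.N123.five_quarters_le
      fun H _ _ _ _ A P x hx => hC H A P _ ⟨x, hx, rfl⟩⟩,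
    fun _ _ _ _ _ A hA _ l c k R hl hR _ hM => ?_⟩
  · obtain ⟨x, hx, rfl⟩ := hw
    exact Vale.Agent.N123.radius_bound A P x hx
  · have h := Vale.Agent.N123.unb A hA l c k R (fun j x hx hz => hl j ⟨x, hx, hz⟩) hR
      (fun x hx => hM _ ⟨x, hx, rfl⟩)
    refine ⟨h.1, fun w hw => ?_⟩
    obtain ⟨x, hx, rfl⟩ := hw
    exact h.2 x hx

end Vale.Agent.N123.OldRadius
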