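import Vale.Agent.N123.Core

/-! # P123: unbounded operators -/

open Polynomial

namespace Vale.Agent.N123

open Vale.Agent.P123.H686

variable {H : Type*} [NormedAddCommGroup H] [InnerProductSpace ℂ H]

theorem isClosed_W [FiniteDimensional ℂ H] (B : H →L[ℂ] H) : IsClosed (W B) := by
  have : ProperSpace H := FiniteDimensional.proper_rclike ℂ H
  have h1 : W B = (fun x : H => inner ℂ x (B x)) '' Metric.sphere 0 1 := by
    ext z
    simp only [W, Set.mem_ofPred_eq, Set.mem_image, mem_sphere_zero_iff_norm]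
  rw [h1]
  exact ((isCompact_sphere 0 1).image (continuous_id.inner B.continuous)).isClosed

/-- The two inequalities for a vector of the domain. -/
theorem unb_dom (A : H →ₗ.[ℂ] H) {n : ℕ} (lam c : Fin n → ℂ) (k : Fin n → ℕ)
    (R : Fin n → H →L[ℂ] H)
    (hl : ∀ j, ∀ x : A.domain, ‖(x : H)‖ = 1 → inner ℂ (x : H) (A x) ≠ lam j)
    (hR : ∀ j y, ∃ h : R j y ∈ A.domain, A ⟨R j y, h⟩ - lam j • R j y = y)
    {M : ℝ} (hM0 : 0 ≤ M)
    (hM : ∀ x : A.domain, ‖(x : H)‖ = 1 →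
      ‖∑ j, c j * ((inner ℂ (x : H) (A x) - lam j)⁻¹) ^ k j‖ ≤ M)
    (x : H) (hx : x ∈ A.domain) :
    ‖(∑ j, c j • R j ^ k j) x‖ ≤ 2 * M * ‖x‖ ∧
      ‖inner ℂ x ((∑ j, c j • R j ^ k j) x)‖ ≤ 5 / 4 * M * ‖x‖ ^ 2 := by
  classical
  rcases eq_or_ne x 0 with rfl | hx0
  · simp
  set N : ℕ := ∑ j, k j with hN
  have hkN : ∀ j, k j ≤ N := fun j =>
    Finset.single_le_sum (f := k) (fun _ _ => Nat.zero_le _) (Finset.mem_univ j)
  let g : Option (Fin n × Fin (N + 1)) → H := fun o =>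
    match o with
    | none => x
    | some p => (R p.1 ^ (p.2 : ℕ)) x
  let V : Submodule ℂ H := Submodule.span ℂ (Set.range g)
  have hdomR : ∀ j i, (R j ^ i) x ∈ A.domain := by
    intro j i
    cases i with
    | zero => simpa using hx
    | succ i =>
      rw [pow_succ', mul_apply_eq_comp]
      exact (hR j _).1
  have hVD : V ≤ A.domain := by
    refine Submodule.span_le.mpr ?_
    rintro _ ⟨o, rfl⟩
    cases o with
    | none => exact hx
    | some p => exact hdomR p.1 p.2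
  have : FiniteDimensional ℂ V := FiniteDimensional.span_of_finite ℂ (Set.finite_range g)
  have : CompleteSpace V := FiniteDimensional.complete ℂ V
  have hxV : x ∈ V := Submodule.subset_span ⟨none, rfl⟩
  have hRV : ∀ j i, i ≤ N → (R j ^ i) x ∈ V := fun j i hi =>
    Submodule.subset_span ⟨some (j, ⟨i, Nat.lt_succ_of_le hi⟩), rfl⟩
  have : Nontrivial V := ⟨⟨⟨x, hxV⟩, 0, fun h => hx0 (congrArg Subtype.val h)⟩⟩
  let B0 : V →ₗ[ℂ] V := (V.orthogonalProjectionOnto : H →ₗ[ℂ] V) ∘ₗ A.toFun ∘ₗ Submodule.inclusion hVD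
  let B : V →L[ℂ] V := LinearMap.toContinuousLinearMap B0
  have hB : ∀ v : V, B v = V.orthogonalProjectionOnto (A ⟨v, hVD v.2⟩) := fun v => rfl
  have hWB : ∀ z ∈ W B, ∃ u : A.domain, ‖(u : H)‖ = 1 ∧ inner ℂ (u : H) (A u) = z := by
    rintro z ⟨v, hv, rfl⟩
    refine ⟨⟨v, hVD v.2⟩, hv, ?_⟩
    rw [hB, Submodule.inner_orthogonalProjectionOnto_eq_of_mem_left]
  have hstep : ∀ j i (hi : i + 1 ≤ N),
      aeval B (X - C (lam j)) (⟨(R j ^ (i + 1)) x, hRV j _ hi⟩ : V)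
        = ⟨(R j ^ i) x, hRV j _ (Nat.le_of_succ_le hi)⟩ := by
    intro j i hi
    obtain ⟨h1, h2⟩ := hR j ((R j ^ i) x)
    have e0 : (R j ^ (i + 1)) x = R j ((R j ^ i) x) := by rw [pow_succ', mul_apply_eq_comp]
    have e1 : A ⟨(R j ^ (i + 1)) x, hdomR j _⟩
        = (R j ^ i) x + lam j • (R j ^ (i + 1)) x := by
      have e2 : (⟨(R j ^ (i + 1)) x, hdomR j _⟩ : A.domain) = ⟨R j ((R j ^ i) x), h1⟩ :=
        Subtype.ext e0
      rw [e2, e0]
      exact sub_eq_iff_eq_add.mp h2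
    rw [map_sub, aeval_X, aeval_C, Algebra.algebraMap_eq_smul_one, sub_apply, smul_apply,
      one_apply_eq_self, hB, sub_eq_iff_eq_add]
    change V.orthogonalProjectionOnto (A ⟨(R j ^ (i + 1)) x, hdomR j _⟩) = _
    rw [e1]
    exact Submodule.orthogonalProjectionOnto_mem_subspace_eq_self
      ((⟨(R j ^ i) x, hRV j _ (Nat.le_of_succ_le hi)⟩ : V)
        + lam j • (⟨(R j ^ (i + 1)) x, hRV j _ hi⟩ : V))
  have hpow : ∀ j i (hi : i ≤ N),
      aeval B ((X - C (lam j)) ^ i) (⟨(R j ^ i) x, hRV j _ hi⟩ : V) = ⟨x, hxV⟩ := by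
    intro j i
    induction i with
    | zero => intro hi; simp
    | succ i ih =>
      intro hi
      rw [pow_succ (X - C (lam j)), map_mul, mul_apply_eq_comp, hstep j i hi,
        ih (Nat.le_of_succ_le hi)]
  have hl' : ∀ j, lam j ∉ closure (W B) := by
    intro j hj
    rw [(isClosed_W B).closure_eq] at hj
    obtain ⟨u, hu, hz⟩ := hWB _ hj
    exact hl j u hu hz
  have hM' : ∀ z ∈ W B, ‖∑ j, c j * ((z - lam j)⁻¹) ^ k j‖ ≤ M := by
    intro z hz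
    obtain ⟨u, hu, rfl⟩ := hWB _ hz
    exact hM u hu
  have h := core_frac B lam c k hl' hM0 hM' ⟨x, hxV⟩
    (fun j => ⟨(R j ^ k j) x, hRV j _ (hkN j)⟩) (fun j => hpow j _ (hkN j))
  have e : ((∑ j, c j • (⟨(R j ^ k j) x, hRV j _ (hkN j)⟩ : V) : V) : H)
      = (∑ j, c j • R j ^ k j) x := by
    rw [Submodule.coe_sum, sum_apply]
    rfl
  rw [← e]
  exact h

/-- Crouzeix's inequality for rational functions of a densely defined operator. -/
theorem unb [Nontrivial H] (A : H →ₗ.[ℂ] H) (hA : Dense (A.domain : Set H)) {n : ℕ}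
    (lam c : Fin n → ℂ) (k : Fin n → ℕ) (R : Fin n → H →L[ℂ] H)
    (hl : ∀ j, ∀ x : A.domain, ‖(x : H)‖ = 1 → inner ℂ (x : H) (A x) ≠ lam j)
    (hR : ∀ j y, ∃ h : R j y ∈ A.domain, A ⟨R j y, h⟩ - lam j • R j y = y)
    {M : ℝ} (hM : ∀ x : A.domain, ‖(x : H)‖ = 1 →
      ‖∑ j, c j * ((inner ℂ (x : H) (A x) - lam j)⁻¹) ^ k j‖ ≤ M) :
    ‖∑ j, c j • R j ^ k j‖ ≤ 2 * M ∧
      ∀ x : H, ‖x‖ = 1 → ‖inner ℂ x ((∑ j, c j • R j ^ k j) x)‖ ≤ 5 / 4 * M := by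
  have hM0 : 0 ≤ M := by
    obtain ⟨x, hx, hx0⟩ := hA.exists_mem_open (isOpen_compl_singleton (x := (0 : H)))
      (by obtain ⟨y, hy⟩ := exists_ne (0 : H); exact ⟨y, hy⟩)
    have hn : ‖x‖ ≠ 0 := norm_ne_zero_iff.mpr hx0
    refine (norm_nonneg _).trans (hM ⟨((‖x‖⁻¹ : ℝ) : ℂ) • x, A.domain.smul_mem _ hx⟩ ?_)
    rw [norm_smul, Complex.norm_real, norm_inv, norm_norm, inv_mul_cancel₀ hn]
  set T : H →L[ℂ] H := ∑ j, c j • R j ^ k j with hT
  have h1 : ∀ x : H, ‖T x‖ ≤ 2 * M * ‖x‖ := fun x =>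
    hA.induction (P := fun x => ‖T x‖ ≤ 2 * M * ‖x‖)
      (fun x hx => (unb_dom A lam c k R hl hR hM0 hM x hx).1)
      (isClosed_le (by fun_prop) (by fun_prop)) x
  have h2 : ∀ x : H, ‖inner ℂ x (T x)‖ ≤ 5 / 4 * M * ‖x‖ ^ 2 := fun x =>
    hA.induction (P := fun x => ‖inner ℂ x (T x)‖ ≤ 5 / 4 * M * ‖x‖ ^ 2)
      (fun x hx => (unb_dom A lam c k R hl hR hM0 hM x hx).2)
      (isClosed_le (continuous_id.inner T.continuous).norm (by fun_prop)) x
  refine ⟨T.opNorm_le_bound (by positivity) h1, fun x hx => ?_⟩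
  have := h2 x
  rwa [hx, one_pow, mul_one] at this

end Vale.Agent.N123
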